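import Vale.Agent.Lib.Helper8.DftLower

open Vale.Agent.Lib.Helper8 in
/-- Every linear circuit (gates `u + v`, `u - v`, `c • u` with arbitrary complex constants `c`)
that computes the unnormalized discrete Fourier transform of order `n ≥ 2`, that is, whose
computed linear forms include every `∑ k, ζ ^ (j * k) * x k` with `ζ = exp (2 π i / n)`, has at
least `3 n - 2 - τ(n)` gates, where `τ(n)` is the number of divisors of `n`. -/
theorem Vale.Agent.Results.P344.ThreeNLowerBound.result (n : ℕ) (hn : 2 ≤ n)
    (l : List (Fin n → ℂ)) (hl : LinCircuit n l)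
    (hout : ∀ j : Fin n,
      (fun k : Fin n => Complex.exp (2 * Real.pi * Complex.I / n) ^ (j.val * k.val)) ∈ l) :
    3 * n ≤ l.length + 2 + (Nat.divisors n).card :=
  Vale.Agent.Lib.Helper8.dft_circuit_lower n hn l hl hout
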